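import Vale.Agent.Lib.P245.BEWrap

open MeasureTheory Real
open scoped ContDiff
open Vale.Agent.Lib.P245

theorem a1_log_bound (n : ℕ) (hn : 0 < n) :
    log ((n : ℝ) + 1) ^ 2 ≤ 4 * n := by
  have hn1 : (1 : ℝ) ≤ n := by exact_mod_cast hn
  set y : ℝ := √((n : ℝ) + 1) with hy
  have hy2 : y ^ 2 = (n : ℝ) + 1 := Real.sq_sqrt (by linarith)
  have hy1 : 1 ≤ y := by
    rw [hy]; exact Real.one_le_sqrt.2 (by linarith)
  have hlog : log ((n : ℝ) + 1) = 2 * log y := by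
    rw [← hy2, Real.log_pow]; norm_num
  have h1 : log y ≤ y - 1 := Real.log_le_sub_one_of_pos (by linarith)
  have h0 : 0 ≤ log y := Real.log_nonneg hy1
  rw [hlog]
  have : (log y) ^ 2 ≤ (y - 1) ^ 2 := pow_le_pow_left₀ h0 h1 2
  nlinarith

/-- Explicit form with the logarithmic Poincare bound as the input. -/
theorem Vale.Agent.Results.P245.A1_log_cube_root.result (C : ℝ) (hC : 0 < C)
    (hK : ∀ (n : ℕ), 0 < n → ∀ ρ : X n → ℝ, LCDensity ρ → ∀ a : ℝ, 0 < a →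
      (∀ i, ∫ x, x i * ρ x = 0) →
      (∀ θ : X n, nsq θ = 1 → Integrable (fun x => exp (dot x θ ^ 2 / a ^ 2) * ρ x)) →
      (∀ θ : X n, nsq θ = 1 → ∫ x, exp (dot x θ ^ 2 / a ^ 2) * ρ x ≤ 2) →
      ∀ g : X n → ℝ, ContDiff ℝ ∞ g → HasCompactSupport g →
        (∫ x, g x ^ 2 * ρ x) - (∫ x, g x * ρ x) ^ 2 ≤
          (C * a ^ 2 * log ((n : ℝ) + 1)) * ∫ x, gradSq g x * ρ x)
    (n : ℕ) (n_pos : 0 < n) {ρ : X n → ℝ} (hρ : LCDensity ρ) {a : ℝ} (ha : 0 < a)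
    (hc : ∀ i, ∫ x, x i * ρ x = 0)
    (hi : ∀ θ : X n, nsq θ = 1 → Integrable (fun x => exp (dot x θ ^ 2 / a ^ 2) * ρ x))
    (hs : ∀ θ : X n, nsq θ = 1 → ∫ x, exp (dot x θ ^ 2 / a ^ 2) * ρ x ≤ 2)
    {g : X n → ℝ} (hg : ContDiff ℝ ∞ g) (hgc : HasCompactSupport g) :
    (∫ x, g x ^ 2 * log (g x ^ 2) * ρ x) - (∫ x, g x ^ 2 * ρ x) * log (∫ x, g x ^ 2 * ρ x) ≤
      (201 * C ^ ((1 : ℝ) / 3) + 400 + 12 * C) * a ^ 2 *
        ((n : ℝ) * log ((n : ℝ) + 1)) ^ ((1 : ℝ) / 3) * ∫ x, gradSq g x * ρ x := by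
  have hn1 : (1 : ℝ) ≤ n := by exact_mod_cast n_pos
  set L : ℝ := log ((n : ℝ) + 1) with hL
  have hL2 : (0.69 : ℝ) ≤ L := by
    have h1 : log 2 ≤ L := Real.log_le_log (by norm_num) (by linarith)
    have h2 := Real.log_two_gt_d9
    linarith
  have hL0 : 0 < L := by linarith
  set P : ℝ := C * a ^ 2 * L with hP
  have hP0 : 0 < P := by positivity
  have key := lsi_density_unconditional n_pos hρ ha hc hi hs hP0
    (fun g' hg' hgc' => hK n n_pos ρ hρ a ha hc hi hs g' hg' hgc') hg hgc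
  set D : ℝ := ∫ x, gradSq g x * ρ x with hD
  have hD0 : 0 ≤ D := integral_nonneg fun x =>
    mul_nonneg (Finset.sum_nonneg fun _ _ => sq_nonneg _) (hρ.nonneg x)
  set N : ℝ := (n : ℝ) * L with hN
  have hN0 : 0 < N := by positivity
  set Q : ℝ := N ^ ((1 : ℝ) / 3) with hQ
  have hQ0 : 0 < Q := Real.rpow_pos_of_pos hN0 _
  have hQ3 : Q ^ 3 = N := by
    rw [hQ, ← Real.rpow_natCast, ← Real.rpow_mul hN0.le]; norm_num
  -- the three terms
  have e1 : (a ^ 4 * n * P) ^ ((1 : ℝ) / 3) = a ^ 2 * C ^ ((1 : ℝ) / 3) * Q := by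
    have e : a ^ 4 * n * P = (a ^ 2) ^ 3 * C * N := by
      rw [hP, hN]; ring
    rw [e, Real.mul_rpow (by positivity) hN0.le, Real.mul_rpow (by positivity) hC.le]
    congr 2
    rw [← Real.rpow_natCast, ← Real.rpow_mul (by positivity)]
    norm_num
  have hQ1 : (0.72 : ℝ) ≤ Q := by
    by_contra hlt
    push Not at hlt
    have h3 : Q ^ 3 < 0.72 ^ 3 := pow_lt_pow_left₀ hlt hQ0.le (by norm_num)
    have h4 : (0.69 : ℝ) ≤ N := by
      rw [hN]; nlinarith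
    rw [hQ3] at h3
    norm_num at h3
    linarith
  have e2 : 288 * a ^ 2 ≤ 400 * a ^ 2 * Q := by
    have : 0 < a ^ 2 := by positivity
    nlinarith
  have hLQ : L ≤ 2 * Q := by
    by_contra hlt
    push Not at hlt
    have h3 : (2 * Q) ^ 3 < L ^ 3 := pow_lt_pow_left₀ hlt (by positivity) (by norm_num)
    have h4 : L ^ 2 ≤ 4 * n := a1_log_bound n n_pos
    have h5 : (2 * Q) ^ 3 = 8 * N := by rw [mul_pow, hQ3]; norm_num
    rw [h5, hN] at h3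
    have h6 : L ^ 3 = L ^ 2 * L := by ring
    rw [h6] at h3
    nlinarith
  have e3 : 6 * P ≤ 12 * C * a ^ 2 * Q := by
    rw [hP]
    have : 0 < C * a ^ 2 := by positivity
    nlinarith
  refine key.trans ?_
  rw [e1]
  refine mul_le_mul_of_nonneg_right ?_ hD0
  nlinarith


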