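import Vale.Agent.Lib.P245.BEWrap

open MeasureTheory Real
open scoped ContDiff
open Vale.Agent.Lib.P245

/-- For `ρ` a centered log-concave probability density on `ℝⁿ`, linearly `a`-subgaussian, every
`L > 0` and every compactly supported smooth `g`, the defective log-Sobolev inequality
`Ent(g²) ≤ a² (288 + 200 √(n/L)) ∫|Dg|² + L ∫g²` holds. There is no other hypothesis. -/
theorem Vale.Agent.Results.P245.B_defective.result (n : ℕ) (n_pos : 0 < n)
    {ρ : X n → ℝ} (hρ : LCDensity ρ) {a : ℝ} (ha : 0 < a) (hc : ∀ i, ∫ x, x i * ρ x = 0)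
    (hi : ∀ θ : X n, nsq θ = 1 → Integrable (fun x => exp (dot x θ ^ 2 / a ^ 2) * ρ x))
    (hs : ∀ θ : X n, nsq θ = 1 → ∫ x, exp (dot x θ ^ 2 / a ^ 2) * ρ x ≤ 2)
    {g : X n → ℝ} (hg : ContDiff ℝ ∞ g) (hgc : HasCompactSupport g) {L : ℝ} (hL : 0 < L) :
    (∫ x, g x ^ 2 * log (g x ^ 2) * ρ x) - (∫ x, g x ^ 2 * ρ x) * log (∫ x, g x ^ 2 * ρ x) ≤
      a ^ 2 * (288 + 200 * sqrt (n / L)) * (∫ x, gradSq g x * ρ x) + L * ∫ x, g x ^ 2 * ρ x := by
  have := isProb_muOf hρ
  have hSub : SubG (muOf ρ) a :=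
    { a_pos := ha
      centered := fun i => by rw [integral_muOf hρ]; exact hc i
      intg := fun θ hθ => integrable_muOf hρ (hi θ hθ)
      mgf := fun θ hθ => by rw [integral_muOf hρ]; exact hs θ hθ }
  have hT : TiltLSI (muOf ρ) := by
    intro s hs' y g' hg'
    have h1 := bakryEmery_holds n ρ hρ s hs' y g' hg'
    simp only [entT, Pf, wI, integral_muOf hρ]
    simpa [mul_assoc, mul_comm, mul_left_comm] using h1
  have hT' : IsTest g := by
    refine ⟨hg, ?_, ?_⟩
    · obtain ⟨C, hC⟩ := hgc.exists_bound_of_continuous hg.continuous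
      exact ⟨C, fun x => by simpa [Real.norm_eq_abs] using hC x⟩
    · obtain ⟨C, hC⟩ := (gs_hasCompactSupport hg hgc).exists_bound_of_continuous (gs_continuous hg)
      exact ⟨C, fun x => by
        have := hC x
        rw [Real.norm_eq_abs] at this
        exact (le_abs_self _).trans this⟩
  have := defective n_pos hSub hT hT' hL
  simp only [EntF, integral_muOf hρ] at this
  exact this
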